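import Crest.Agent.Helper24.SW.QForm

/-!
# S0453 (row 299), WP-D1, part 2: the colouring model and its symmetry reduction (PROOF.md (3.1)–(3.3))

States = pairs of colourings `σ₁ : K1 → Fin 3`, `σ₂ : K2 → Fin 3` with
`|σ₁⁻¹(i)| - |σ₂⁻¹(i)| = δ i`; party `i` sees `view i σ = (σ₁⁻¹(i), σ₂⁻¹(i))`.

Main result of this file: `nonneg_of_levels` — the form `Qf (states δ) (fun i σ => g i (view i σ))` is `≥ 0`
for every `g` as soon as it is `≥ 0` for the *level functions* `g i (A, B) = u i |A|`.
-/

set_option autoImplicit false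
set_option linter.unusedSectionVars false
set_option linter.unusedVariables false
open Finset

namespace Crest.Agent.Helper24.SW

/-- colour class of a colouring -/
def fib {K : Type*} [Fintype K] (f : K → Fin 3) (i : Fin 3) : Finset K :=
  univ.filter (fun a => f a = i)

variable {K1 K2 : Type*} [Fintype K1] [DecidableEq K1] [Fintype K2] [DecidableEq K2]

/-- states of the colouring model -/
def states (δ : Fin 3 → ℤ) : Finset ((K1 → Fin 3) × (K2 → Fin 3)) :=
  univ.filter (fun σ => ∀ i, ((fib σ.1 i).card : ℤ) - (fib σ.2 i).card = δ i)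

/-- what party `i` sees -/
def view (i : Fin 3) (σ : (K1 → Fin 3) × (K2 → Fin 3)) : Finset K1 × Finset K2 :=
  (fib σ.1 i, fib σ.2 i)

lemma mem_states {δ : Fin 3 → ℤ} {σ : (K1 → Fin 3) × (K2 → Fin 3)} :
    σ ∈ states δ ↔ ∀ i, ((fib σ.1 i).card : ℤ) - (fib σ.2 i).card = δ i := by
  simp [states]

/-- action of a pair of permutations on views -/
def actY (π : Equiv.Perm K1 × Equiv.Perm K2) : (Finset K1 × Finset K2) ≃ (Finset K1 × Finset K2) :=
  Equiv.prodCongr (Equiv.finsetCongr π.1) (Equiv.finsetCongr π.2)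

/-- action of a pair of permutations on states -/
def actS (π : Equiv.Perm K1 × Equiv.Perm K2) :
    ((K1 → Fin 3) × (K2 → Fin 3)) ≃ ((K1 → Fin 3) × (K2 → Fin 3)) :=
  Equiv.prodCongr (Equiv.arrowCongr π.1 (Equiv.refl _)) (Equiv.arrowCongr π.2 (Equiv.refl _))

lemma actY_apply (π : Equiv.Perm K1 × Equiv.Perm K2) (y : Finset K1 × Finset K2) :
    actY π y = (y.1.map π.1.toEmbedding, y.2.map π.2.toEmbedding) := rfl

lemma actS_apply (π : Equiv.Perm K1 × Equiv.Perm K2) (σ : (K1 → Fin 3) × (K2 → Fin 3)) :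
    actS π σ = (σ.1 ∘ π.1.symm, σ.2 ∘ π.2.symm) := rfl

lemma fib_comp_symm {K : Type*} [Fintype K] [DecidableEq K] (f : K → Fin 3) (π : Equiv.Perm K)
    (i : Fin 3) : fib (f ∘ π.symm) i = (fib f i).map π.toEmbedding := by
  ext a
  simp [fib, Finset.mem_map_equiv]

lemma view_actS (π : Equiv.Perm K1 × Equiv.Perm K2) (i : Fin 3) (σ : (K1 → Fin 3) × (K2 → Fin 3)) :
    view i (actS π σ) = actY π (view i σ) := by
  simp only [view, actS_apply, actY_apply, fib_comp_symm]

lemma actS_mem (δ : Fin 3 → ℤ) (π : Equiv.Perm K1 × Equiv.Perm K2)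
    (σ : (K1 → Fin 3) × (K2 → Fin 3)) : σ ∈ states δ ↔ actS π σ ∈ states δ := by
  simp only [mem_states, actS_apply, fib_comp_symm, Finset.card_map]

/-- pull a triple of view-functions back to the states -/
def pull (g : Fin 3 → Finset K1 × Finset K2 → ℝ) : Fin 3 → (K1 → Fin 3) × (K2 → Fin 3) → ℝ :=
  fun i σ => g i (view i σ)

/-- the form of (L3) on view-functions -/
def qform (δ : Fin 3 → ℤ) (g : Fin 3 → Finset K1 × Finset K2 → ℝ) : ℝ :=
  Qf (states δ) (pull g)

/-- Euclidean square norm on view-functions -/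
def enorm (g : Fin 3 → Finset K1 × Finset K2 → ℝ) : ℝ := ∑ i, ∑ y, g i y ^ 2

/-- action on view-functions -/
def actG (π : Equiv.Perm K1 × Equiv.Perm K2) (g : Fin 3 → Finset K1 × Finset K2 → ℝ) :
    Fin 3 → Finset K1 × Finset K2 → ℝ := fun i y => g i (actY π y)

lemma qform_actG (δ : Fin 3 → ℤ) (π : Equiv.Perm K1 × Equiv.Perm K2)
    (g : Fin 3 → Finset K1 × Finset K2 → ℝ) : qform δ (actG π g) = qform δ g := by
  unfold qform
  have h : pull (actG π g) = fun i σ => pull g i (actS π σ) := by
    funext i σ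
    simp only [pull, actG, view_actS]
  rw [h]
  exact Qf_comp_equiv (states δ) (actS π) (actS_mem δ π) (pull g)

lemma enorm_actG (π : Equiv.Perm K1 × Equiv.Perm K2) (g : Fin 3 → Finset K1 × Finset K2 → ℝ) :
    enorm (actG π g) = enorm g := by
  unfold enorm actG
  exact Finset.sum_congr rfl (fun i _ => Equiv.sum_comp (actY π) (fun y => g i y ^ 2))

lemma qform_add_sub (δ : Fin 3 → ℤ) (g h : Fin 3 → Finset K1 × Finset K2 → ℝ) :
    qform δ (g + h) + qform δ (g - h) = 2 * qform δ g + 2 * qform δ h :=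
  Qf_add_sub (states δ) (pull g) (pull h)

lemma qform_smul (δ : Fin 3 → ℤ) (t : ℝ) (g : Fin 3 → Finset K1 × Finset K2 → ℝ) :
    qform δ (t • g) = t ^ 2 * qform δ g :=
  Qf_smul (states δ) t (pull g)

lemma enorm_add_sub (g h : Fin 3 → Finset K1 × Finset K2 → ℝ) :
    enorm (g + h) + enorm (g - h) = 2 * enorm g + 2 * enorm h := by
  unfold enorm
  simp only [Pi.add_apply, Pi.sub_apply]
  rw [← Finset.sum_add_distrib, Finset.mul_sum, Finset.mul_sum, ← Finset.sum_add_distrib]
  refine Finset.sum_congr rfl (fun i _ => ?_)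
  rw [← Finset.sum_add_distrib, Finset.mul_sum, Finset.mul_sum, ← Finset.sum_add_distrib]
  exact Finset.sum_congr rfl (fun y _ => by ring)

lemma enorm_smul (t : ℝ) (g : Fin 3 → Finset K1 × Finset K2 → ℝ) :
    enorm (t • g) = t ^ 2 * enorm g := by
  unfold enorm
  simp only [Pi.smul_apply, smul_eq_mul, mul_pow, ← Finset.mul_sum]

lemma enorm_nonneg (g : Fin 3 → Finset K1 × Finset K2 → ℝ) : 0 ≤ enorm g :=
  Finset.sum_nonneg (fun i _ => Finset.sum_nonneg (fun y _ => sq_nonneg _))

lemma eq_zero_of_enorm_le (g : Fin 3 → Finset K1 × Finset K2 → ℝ) (h : enorm g ≤ 0) : g = 0 := by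
  have h0 : enorm g = 0 := le_antisymm h (enorm_nonneg g)
  unfold enorm at h0
  funext i y
  have h1 := (Finset.sum_eq_zero_iff_of_nonneg
    (fun i _ => Finset.sum_nonneg (fun y _ => sq_nonneg (g i y)))).mp h0 i (Finset.mem_univ i)
  have h2 := (Finset.sum_eq_zero_iff_of_nonneg (fun y _ => sq_nonneg (g i y))).mp h1 y
    (Finset.mem_univ y)
  simpa using h2

lemma enorm_pos (g : Fin 3 → Finset K1 × Finset K2 → ℝ) (h : g ≠ 0) : 0 < enorm g := by
  by_contra hc
  exact h (eq_zero_of_enorm_le g (not_lt.mp hc))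

lemma continuous_enorm : Continuous (enorm : (Fin 3 → Finset K1 × Finset K2 → ℝ) → ℝ) := by
  unfold enorm
  fun_prop

lemma continuous_qform (δ : Fin 3 → ℤ) :
    Continuous (qform δ : (Fin 3 → Finset K1 × Finset K2 → ℝ) → ℝ) := by
  unfold qform Qf var pull
  fun_prop

/-- PROOF.md (3.3): a minimiser of the Rayleigh quotient with negative value is invariant under every
involution `π` that fixes, at each state, the view of one party. -/
lemma minimiser_invariant (δ : Fin 3 → ℤ) (v : Fin 3 → Finset K1 × Finset K2 → ℝ) (ρ : ℝ)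
    (hρ : ρ < 0) (hqv : qform δ v = ρ * enorm v) (hmin : ∀ g : Fin 3 → Finset K1 × Finset K2 → ℝ, ρ * enorm g ≤ qform δ g)
    (π : Equiv.Perm K1 × Equiv.Perm K2) (hinv : ∀ y, actY π (actY π y) = y)
    (hfix : ∀ σ ∈ states (K1 := K1) (K2 := K2) δ, ∃ k, actY π (view k σ) = view k σ) :
    actG π v = v := by
  set vp : Fin 3 → Finset K1 × Finset K2 → ℝ := (1 / 2 : ℝ) • (v + actG π v) with hvp
  set vm : Fin 3 → Finset K1 × Finset K2 → ℝ := (1 / 2 : ℝ) • (v - actG π v) with hvm
  have e1 : vp + vm = v := by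
    funext i y
    simp only [hvp, hvm, Pi.add_apply, Pi.smul_apply, Pi.sub_apply, smul_eq_mul]
    ring
  have e2 : vp - vm = actG π v := by
    funext i y
    simp only [hvp, hvm, Pi.add_apply, Pi.smul_apply, Pi.sub_apply, smul_eq_mul]
    ring
  have hq := qform_add_sub δ vp vm
  have hE := enorm_add_sub vp vm
  rw [e1, e2, qform_actG] at hq
  rw [e1, e2, enorm_actG] at hE
  -- antisymmetric part has nonnegative form
  have hanti : ∀ i y, vm i (actY π y) = - vm i y := by
    intro i y
    simp only [hvm, Pi.smul_apply, Pi.sub_apply, smul_eq_mul, actG, hinv]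
    ring
  have hvm0 : 0 ≤ qform δ vm := by
    unfold qform
    refine Qf_nonneg_of_antisymm (states δ) (actS π) (actS_mem δ π) (pull vm) ?_ ?_
    · intro i σ _
      simp only [pull, view_actS, hanti]
    · intro σ hσ
      obtain ⟨k, hk⟩ := hfix σ hσ
      refine ⟨k, ?_⟩
      have := hanti k (view k σ)
      rw [hk] at this
      simp only [pull]
      linarith
  have h1 := hmin vp
  have h2 : enorm vm ≤ 0 := by
    by_contra hc
    rw [not_le] at hc
    nlinarith
  have h3 := eq_zero_of_enorm_le vm h2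
  rw [← e2, h3, sub_zero, ← e1, h3, add_zero]

/-! ### swaps -/

lemma map_swap_eq_self {K : Type*} [DecidableEq K] (A : Finset K) (x x' : K)
    (h : x ∈ A ↔ x' ∈ A) : A.map (Equiv.swap x x').toEmbedding = A := by
  ext a
  rw [Finset.mem_map_equiv, Equiv.symm_swap]
  by_cases h1 : a = x
  · subst h1
    rw [Equiv.swap_apply_left]
    exact h.symm
  · by_cases h2 : a = x'
    · subst h2
      rw [Equiv.swap_apply_right]
      exact h
    · rw [Equiv.swap_apply_of_ne_of_ne h1 h2]

lemma map_swap_map_swap {K : Type*} [DecidableEq K] (A : Finset K) (x x' : K) :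
    (A.map (Equiv.swap x x').toEmbedding).map (Equiv.swap x x').toEmbedding = A := by
  ext a
  simp [Finset.mem_map_equiv]

lemma map_one_perm {K : Type*} [DecidableEq K] (A : Finset K) :
    A.map (1 : Equiv.Perm K).toEmbedding = A := by
  ext a
  rw [Finset.mem_map_equiv]
  exact Iff.rfl

lemma exists_ne_ne : ∀ a b : Fin 3, ∃ k : Fin 3, k ≠ a ∧ k ≠ b := by decide

/-- A function on finsets that is invariant under all transpositions depends only on the cardinality. -/
lemma eq_of_card_eq {K : Type*} [Fintype K] [DecidableEq K] (f : Finset K → ℝ)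
    (h : ∀ (x x' : K) (A : Finset K), f (A.map (Equiv.swap x x').toEmbedding) = f A)
    (A A' : Finset K) (hc : A.card = A'.card) : f A = f A' := by
  have hperm : ∀ (π : Equiv.Perm K) (A : Finset K), f (A.map π.toEmbedding) = f A := by
    intro π
    induction π using Equiv.Perm.swap_induction_on with
    | one => intro A; rw [map_one_perm]
    | swap_mul π x y _ ih =>
      intro A
      have : A.map (Equiv.swap x y * π).toEmbedding
          = (A.map π.toEmbedding).map (Equiv.swap x y).toEmbedding := by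
        ext a
        simp only [Finset.mem_map_equiv]
        show (Equiv.swap x y * π)⁻¹ a ∈ A ↔ π⁻¹ ((Equiv.swap x y)⁻¹ a) ∈ A
        rw [mul_inv_rev, Equiv.Perm.mul_apply]
      rw [this, h, ih]
  let e : {x // x ∈ A} ≃ {x // x ∈ A'} := Finset.equivOfCardEq hc
  have hsub : A.map (e.extendSubtype).toEmbedding ⊆ A' := by
    intro a ha
    rw [Finset.mem_map] at ha
    obtain ⟨b, hb, rfl⟩ := ha
    have := Equiv.extendSubtype_apply_of_mem e b hb
    simp only [Equiv.coe_toEmbedding]
    rw [this]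
    exact (e ⟨b, hb⟩).2
  have heq : A.map (e.extendSubtype).toEmbedding = A' :=
    Finset.eq_of_subset_of_card_le hsub (by rw [Finset.card_map, hc])
  rw [← heq, hperm]

variable (δ : Fin 3 → ℤ)

/-- PROOF.md (3.3), conclusion: a minimiser with negative value depends only on the two cardinalities. -/
lemma minimiser_levels (v : Fin 3 → Finset K1 × Finset K2 → ℝ) (ρ : ℝ)
    (hρ : ρ < 0) (hqv : qform δ v = ρ * enorm v) (hmin : ∀ g : Fin 3 → Finset K1 × Finset K2 → ℝ, ρ * enorm g ≤ qform δ g)
    (i : Fin 3) (A A' : Finset K1) (B B' : Finset K2) (hA : A.card = A'.card)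
    (hB : B.card = B'.card) : v i (A, B) = v i (A', B') := by
  have h1 : ∀ (x x' : K1) (A : Finset K1) (B : Finset K2),
      v i (A.map (Equiv.swap x x').toEmbedding, B) = v i (A, B) := by
    intro x x' A B
    have hinv : ∀ y, actY (Equiv.swap x x', (1 : Equiv.Perm K2)) (actY (Equiv.swap x x', 1) y) = y := by
      intro y
      simp only [actY_apply, map_swap_map_swap, map_one_perm]
    have hfix : ∀ σ ∈ states (K1 := K1) (K2 := K2) δ,
        ∃ k, actY (Equiv.swap x x', (1 : Equiv.Perm K2)) (view k σ) = view k σ := by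
      intro σ _
      obtain ⟨k, hk1, hk2⟩ := exists_ne_ne (σ.1 x) (σ.1 x')
      refine ⟨k, ?_⟩
      simp only [actY_apply, view, map_one_perm]
      rw [map_swap_eq_self]
      simp only [fib, Finset.mem_filter, Finset.mem_univ, true_and]
      exact ⟨fun h => absurd h.symm hk1, fun h => absurd h.symm hk2⟩
    have := minimiser_invariant δ v ρ hρ hqv hmin (Equiv.swap x x', 1) hinv hfix
    have h2 := congrFun (congrFun this i) (A, B)
    simp only [actG, actY_apply, map_one_perm] at h2
    exact h2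
  have h2 : ∀ (x x' : K2) (A : Finset K1) (B : Finset K2),
      v i (A, B.map (Equiv.swap x x').toEmbedding) = v i (A, B) := by
    intro x x' A B
    have hinv : ∀ y, actY ((1 : Equiv.Perm K1), Equiv.swap x x') (actY (1, Equiv.swap x x') y) = y := by
      intro y
      simp only [actY_apply, map_swap_map_swap, map_one_perm]
    have hfix : ∀ σ ∈ states (K1 := K1) (K2 := K2) δ,
        ∃ k, actY ((1 : Equiv.Perm K1), Equiv.swap x x') (view k σ) = view k σ := by
      intro σ _
      obtain ⟨k, hk1, hk2⟩ := exists_ne_ne (σ.2 x) (σ.2 x')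
      refine ⟨k, ?_⟩
      simp only [actY_apply, view, map_one_perm]
      rw [map_swap_eq_self]
      simp only [fib, Finset.mem_filter, Finset.mem_univ, true_and]
      exact ⟨fun h => absurd h.symm hk1, fun h => absurd h.symm hk2⟩
    have := minimiser_invariant δ v ρ hρ hqv hmin (1, Equiv.swap x x') hinv hfix
    have h2 := congrFun (congrFun this i) (A, B)
    simp only [actG, actY_apply, map_one_perm] at h2
    exact h2
  rw [eq_of_card_eq (fun A => v i (A, B)) (fun x x' A => h1 x x' A B) A A' hA,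
    eq_of_card_eq (fun B => v i (A', B)) (fun x x' B => h2 x x' A' B) B B' hB]

/-- **Symmetry reduction** (PROOF.md (3.1)–(3.3)): if the form is nonnegative on all level functions then it
is nonnegative on all view-functions. -/
theorem nonneg_of_levels
    (hlev : ∀ u : Fin 3 → ℕ → ℝ,
      0 ≤ Qf (states (K1 := K1) (K2 := K2) δ) (fun i σ => u i ((fib σ.1 i).card)))
    (g : Fin 3 → Finset K1 × Finset K2 → ℝ) : 0 ≤ qform δ g := by
  by_contra hneg
  rw [not_le] at hneg
  obtain ⟨v, ρ, hρ, hEv, hqv, hmin⟩ :=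
    exists_minimiser (qform (K1 := K1) (K2 := K2) δ) enorm (continuous_qform δ) continuous_enorm
      (qform_smul δ) enorm_smul enorm_pos g hneg
  have hl := minimiser_levels δ v ρ hρ hqv hmin
  classical
  -- the level function of `v`
  let u : Fin 3 → ℕ → ℝ := fun i x =>
    if h : ∃ σ ∈ states (K1 := K1) (K2 := K2) δ, (fib σ.1 i).card = x then v i (view i h.choose) else 0
  have hu : ∀ i, ∀ σ ∈ states (K1 := K1) (K2 := K2) δ, pull v i σ = u i ((fib σ.1 i).card) := by
    intro i σ hσ
    have hex : ∃ σ' ∈ states (K1 := K1) (K2 := K2) δ, (fib σ'.1 i).card = (fib σ.1 i).card :=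
      ⟨σ, hσ, rfl⟩
    simp only [u, dif_pos hex, pull, view]
    obtain ⟨h1, h2⟩ := hex.choose_spec
    apply hl
    · exact h2.symm
    · have e1 := mem_states.mp hσ i
      have e2 := mem_states.mp h1 i
      have : ((fib hex.choose.2 i).card : ℤ) = (fib σ.2 i).card := by
        rw [h2] at e2
        linarith
      exact_mod_cast this.symm
  have h0 : 0 ≤ qform δ v := by
    unfold qform
    rw [Qf_congr _ _ _ hu]
    exact hlev u
  nlinarith

end Crest.Agent.Helper24.SW
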