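import Crest.Agent.Helper24.SW.Colour

/-!
# S0453 (row 299), WP-D1, part 3: counting and the inequality (L3) for the colouring model

* `card_colourings` : the number of colourings `K → Fin 3` with prescribed class sizes is a multinomial
  coefficient (PROOF.md (3.4));
* `L3_of_oneDim` : (L3) for the colouring model from the one-dimensional lemma (1D) (PROOF.md (3.5)).
-/

set_option autoImplicit false
set_option linter.unusedSectionVars false
set_option linter.unusedVariables false
open Finset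

namespace Crest.Agent.Helper24.SW

open Nat in
lemma sum_card_fib {K : Type*} [Fintype K] (f : K → Fin 3) :
    ∑ i, (fib f i).card = Fintype.card K := by
  have h := Finset.card_eq_sum_card_fiberwise (f := f) (s := (univ : Finset K))
    (t := (univ : Finset (Fin 3))) (fun x _ => mem_univ _)
  rw [Finset.card_univ] at h
  rw [h]
  rfl

open Nat in
/-- PROOF.md (3.4): the number of colourings with class sizes `l` is `n! / (l 0)! (l 1)! (l 2)!`. -/
lemma card_colourings {K : Type*} [Fintype K] [DecidableEq K] (l : Fin 3 → ℕ)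
    (hl : ∑ i, l i = Fintype.card K) :
    (univ.filter (fun f : K → Fin 3 => ∀ i, (fib f i).card = l i)).card
      * ((l 0)! * (l 1)! * (l 2)!) = (Fintype.card K)! := by
  classical
  have h012 : l 0 + l 1 + l 2 = Fintype.card K := by rw [← hl, Fin.sum_univ_three]
  let T : Finset (Σ _ : Finset K, Finset K) :=
    (powersetCard (l 0) (univ : Finset K)).sigma (fun A => powersetCard (l 1) (univ \ A))
  have hcard : (univ.filter (fun f : K → Fin 3 => ∀ i, (fib f i).card = l i)).card = T.card := by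
    refine Finset.card_bij' (fun f _ => ⟨fib f 0, fib f 1⟩)
      (fun AB _ => fun a => if a ∈ AB.1 then 0 else if a ∈ AB.2 then 1 else 2) ?_ ?_ ?_ ?_
    · intro f hf
      simp only [mem_filter, mem_univ, true_and] at hf
      simp only [T, mem_sigma, mem_powersetCard, subset_univ, true_and]
      refine ⟨hf 0, ?_, hf 1⟩
      intro a ha
      simp only [fib, mem_filter, mem_univ, true_and] at ha
      simp [fib, ha]
    · intro AB hAB
      simp only [T, mem_sigma, mem_powersetCard, subset_univ, true_and] at hAB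
      obtain ⟨hA, hB, hBc⟩ := hAB
      simp only [mem_filter, mem_univ, true_and]
      have hdisj : ∀ a, a ∈ AB.2 → a ∉ AB.1 := fun a ha => (mem_sdiff.mp (hB ha)).2
      set f : K → Fin 3 := fun a => if a ∈ AB.1 then 0 else if a ∈ AB.2 then 1 else 2 with hf
      have f0 : fib f 0 = AB.1 := by
        ext a
        simp only [fib, hf, mem_filter, mem_univ, true_and]
        by_cases h1 : a ∈ AB.1
        · simp [h1]
        · by_cases h2 : a ∈ AB.2
          · simp [h1, h2]
          · simp [h1, h2]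
      have f1 : fib f 1 = AB.2 := by
        ext a
        simp only [fib, hf, mem_filter, mem_univ, true_and]
        by_cases h1 : a ∈ AB.1
        · have : a ∉ AB.2 := fun h => hdisj a h h1
          simp [h1, this]
        · by_cases h2 : a ∈ AB.2
          · simp [h1, h2]
          · simp [h1, h2]
      have hs := sum_card_fib f
      rw [Fin.sum_univ_three, f0, f1, hA, hBc] at hs
      intro i
      fin_cases i
      · simpa [f0] using hA
      · simpa [f1] using hBc
      · simp only [Fin.reduceFinMk]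
        omega
    · intro f hf
      funext a
      simp only [fib, mem_filter, mem_univ, true_and]
      by_cases h0 : f a = 0
      · simp [h0]
      · by_cases h1 : f a = 1
        · simp [h1]
        · simp only [h0, h1, if_false]
          have : ∀ x : Fin 3, x ≠ 0 → x ≠ 1 → 2 = x := by decide
          exact this (f a) h0 h1
    · intro AB hAB
      simp only [T, mem_sigma, mem_powersetCard, subset_univ, true_and] at hAB
      obtain ⟨hA, hB, hBc⟩ := hAB
      have hdisj : ∀ a, a ∈ AB.2 → a ∉ AB.1 := fun a ha => (mem_sdiff.mp (hB ha)).2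
      obtain ⟨A, B⟩ := AB
      simp only at hdisj
      have f0 : fib (fun a => if a ∈ A then (0 : Fin 3) else if a ∈ B then 1 else 2) 0 = A := by
        ext a
        simp only [fib, mem_filter, mem_univ, true_and]
        by_cases h1 : a ∈ A
        · simp [h1]
        · by_cases h2 : a ∈ B
          · simp [h1, h2]
          · simp [h1, h2]
      have f1 : fib (fun a => if a ∈ A then (0 : Fin 3) else if a ∈ B then 1 else 2) 1 = B := by
        ext a
        simp only [fib, mem_filter, mem_univ, true_and]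
        by_cases h1 : a ∈ A
        · have : a ∉ B := fun h => hdisj a h h1
          simp [h1, this]
        · by_cases h2 : a ∈ B
          · simp [h1, h2]
          · simp [h1, h2]
      simp only [f0, f1]
  have hT : T.card = (Fintype.card K).choose (l 0) * (Fintype.card K - l 0).choose (l 1) := by
    simp only [T, Finset.card_sigma]
    rw [Finset.sum_congr rfl (g := fun _ => (Fintype.card K - l 0).choose (l 1))]
    · rw [Finset.sum_const, Finset.card_powersetCard, Finset.card_univ, smul_eq_mul]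
    · intro A hA
      rw [mem_powersetCard] at hA
      rw [Finset.card_powersetCard, Finset.card_sdiff_of_subset (subset_univ A), Finset.card_univ,
        hA.2]
  rw [hcard, hT]
  have a1 := Nat.choose_mul_factorial_mul_factorial (show l 0 ≤ Fintype.card K by omega)
  have a2 := Nat.choose_mul_factorial_mul_factorial (show l 1 ≤ Fintype.card K - l 0 by omega)
  have e : Fintype.card K - l 0 - l 1 = l 2 := by omega
  rw [e] at a2
  rw [← a1, ← a2]
  ring

/-! ### the weights of the levels -/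

open Nat in
/-- weight factor of party `i` at level `x`: `1 / (x! (x - δ i)!)` for `x ≥ δ i`, else `0`. -/
noncomputable def pw (δ : Fin 3 → ℤ) (i : Fin 3) (x : ℕ) : ℝ :=
  if δ i ≤ (x : ℤ) then (((x ! : ℕ) : ℝ) * (((((x : ℤ) - δ i).toNat) ! : ℕ) : ℝ))⁻¹ else 0

lemma pw_nonneg (δ : Fin 3 → ℤ) (i : Fin 3) (x : ℕ) : 0 ≤ pw δ i x := by
  unfold pw
  split_ifs
  · positivity
  · exact le_refl _

lemma pw_pos_iff (δ : Fin 3 → ℤ) (i : Fin 3) (x : ℕ) : 0 < pw δ i x ↔ δ i ≤ (x : ℤ) := by
  unfold pw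
  split_ifs with h
  · simp only [h, iff_true]
    positivity
  · simp [h]

lemma pw_interval (δ : Fin 3 → ℤ) (i : Fin 3) (a b c : ℕ) (hab : a ≤ b) (hbc : b ≤ c)
    (ha : 0 < pw δ i a) (hc : 0 < pw δ i c) : 0 < pw δ i b := by
  rw [pw_pos_iff] at ha ⊢
  have : (a : ℤ) ≤ b := by exact_mod_cast hab
  linarith

open Nat in
lemma pw_logconcave (δ : Fin 3 → ℤ) (i : Fin 3) (x : ℕ) :
    pw δ i x * pw δ i (x + 2) ≤ pw δ i (x + 1) ^ 2 := by
  by_cases h : δ i ≤ (x : ℤ)
  · have h1 : δ i ≤ ((x + 1 : ℕ) : ℤ) := by push_cast; linarith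
    have h2 : δ i ≤ ((x + 2 : ℕ) : ℤ) := by push_cast; linarith
    obtain ⟨n, hn⟩ : ∃ n : ℕ, (x : ℤ) - δ i = n := ⟨((x : ℤ) - δ i).toNat, by omega⟩
    have e0 : ((x : ℤ) - δ i).toNat = n := by omega
    have e1 : (((x + 1 : ℕ) : ℤ) - δ i).toNat = n + 1 := by push_cast; omega
    have e2 : (((x + 2 : ℕ) : ℤ) - δ i).toNat = n + 2 := by push_cast; omega
    simp only [pw, h, h1, h2, if_true, e0, e1, e2]
    have hx1 : ((x + 1)! : ℕ) = (x + 1) * x ! := Nat.factorial_succ x
    have hx2 : ((x + 2)! : ℕ) = (x + 2) * ((x + 1) * x !) := by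
      rw [Nat.factorial_succ (x + 1), Nat.factorial_succ x]
    have hn1 : ((n + 1)! : ℕ) = (n + 1) * n ! := Nat.factorial_succ n
    have hn2 : ((n + 2)! : ℕ) = (n + 2) * ((n + 1) * n !) := by
      rw [Nat.factorial_succ (n + 1), Nat.factorial_succ n]
    rw [hx1, hx2, hn1, hn2]
    push_cast
    have hX : (0 : ℝ) < (x ! : ℕ) := by exact_mod_cast Nat.factorial_pos x
    have hM : (0 : ℝ) < (n ! : ℕ) := by exact_mod_cast Nat.factorial_pos n
    set X : ℝ := ((x ! : ℕ) : ℝ)
    set M : ℝ := ((n ! : ℕ) : ℝ)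
    rw [← mul_inv, inv_pow]
    apply inv_anti₀ (by positivity)
    have hxx : (0 : ℝ) ≤ x := Nat.cast_nonneg x
    have hnn : (0 : ℝ) ≤ n := Nat.cast_nonneg n
    have hid : X * M * (((x : ℝ) + 2) * (((x : ℝ) + 1) * X) * (((n : ℝ) + 2) * (((n : ℝ) + 1) * M)))
        - (((x : ℝ) + 1) * X * (((n : ℝ) + 1) * M)) ^ 2
        = X ^ 2 * M ^ 2 * ((x : ℝ) + 1) * ((n : ℝ) + 1) * ((x : ℝ) + n + 3) := by ring
    have hpos : 0 ≤ X ^ 2 * M ^ 2 * ((x : ℝ) + 1) * ((n : ℝ) + 1) * ((x : ℝ) + n + 3) := by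
      positivity
    linarith
  · have : pw δ i x = 0 := by simp [pw, h]
    rw [this, zero_mul]
    positivity

/-! ### counting the states with given levels -/

variable {K1 K2 : Type*} [Fintype K1] [DecidableEq K1] [Fintype K2] [DecidableEq K2]

open Nat in
lemma card_fibre (δ : Fin 3 → ℤ)
    (hδ : ∑ i, δ i = (Fintype.card K1 : ℤ) - Fintype.card K2) (l : Fin 3 → ℕ)
    (hl : ∑ i, l i = Fintype.card K1) :
    ((((states (K1 := K1) (K2 := K2) δ).filter (fun σ => ∀ i, (fib σ.1 i).card = l i)).card : ℕ) : ℝ)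
      = (((Fintype.card K1)! : ℕ) : ℝ) * (((Fintype.card K2)! : ℕ) : ℝ) * ∏ i, pw δ i (l i) := by
  classical
  have hprod : (states (K1 := K1) (K2 := K2) δ).filter (fun σ => ∀ i, (fib σ.1 i).card = l i)
      = (univ.filter (fun f : K1 → Fin 3 => ∀ i, (fib f i).card = l i)) ×ˢ
        (univ.filter (fun f : K2 → Fin 3 => ∀ i, ((fib f i).card : ℤ) = l i - δ i)) := by
    ext σ
    simp only [states, mem_filter, mem_univ, true_and, mem_product]
    constructor
    · rintro ⟨h1, h2⟩
      refine ⟨h2, fun i => ?_⟩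
      have := h1 i
      rw [h2 i] at this
      linarith
    · rintro ⟨h1, h2⟩
      refine ⟨fun i => ?_, h1⟩
      rw [h1 i, h2 i]
      ring
  rw [hprod, card_product]
  push_cast
  by_cases hc : ∀ i, δ i ≤ (l i : ℤ)
  · set l' : Fin 3 → ℕ := fun i => ((l i : ℤ) - δ i).toNat with hl'def
    have hl' : ∀ i, ((l' i : ℕ) : ℤ) = l i - δ i := fun i =>
      Int.toNat_of_nonneg (by linarith [hc i])
    have hsum' : ∑ i, l' i = Fintype.card K2 := by
      have h1 : ((∑ i, l i : ℕ) : ℤ) = Fintype.card K1 := by exact_mod_cast hl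
      have h2 : ((∑ i, l' i : ℕ) : ℤ) = Fintype.card K2 := by
        push_cast at h1 ⊢
        rw [Finset.sum_congr rfl (fun i _ => hl' i), Finset.sum_sub_distrib, hδ, h1]
        ring
      exact_mod_cast h2
    have hF2 : (univ.filter (fun f : K2 → Fin 3 => ∀ i, ((fib f i).card : ℤ) = l i - δ i))
        = univ.filter (fun f : K2 → Fin 3 => ∀ i, (fib f i).card = l' i) := by
      ext f
      simp only [mem_filter, mem_univ, true_and]
      constructor
      · intro h i
        have := h i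
        rw [← hl' i] at this
        exact_mod_cast this
      · intro h i
        rw [h i, hl' i]
    rw [hF2]
    have c1 := card_colourings l hl
    have c2 := card_colourings l' hsum'
    have hp : ∀ i, pw δ i (l i) = ((((l i)! : ℕ) : ℝ) * (((l' i)! : ℕ) : ℝ))⁻¹ := by
      intro i
      simp only [pw, hc i, if_true, hl'def]
    rw [Fin.prod_univ_three, hp 0, hp 1, hp 2]
    have c1' : (((univ.filter (fun f : K1 → Fin 3 => ∀ i, (fib f i).card = l i)).card : ℕ) : ℝ)
        * ((((l 0)! : ℕ) : ℝ) * (((l 1)! : ℕ) : ℝ) * (((l 2)! : ℕ) : ℝ))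
        = (((Fintype.card K1)! : ℕ) : ℝ) := by exact_mod_cast c1
    have c2' : (((univ.filter (fun f : K2 → Fin 3 => ∀ i, (fib f i).card = l' i)).card : ℕ) : ℝ)
        * ((((l' 0)! : ℕ) : ℝ) * (((l' 1)! : ℕ) : ℝ) * (((l' 2)! : ℕ) : ℝ))
        = (((Fintype.card K2)! : ℕ) : ℝ) := by exact_mod_cast c2
    have p0 : (0 : ℝ) < ((l 0)! : ℕ) := by exact_mod_cast Nat.factorial_pos _
    have p1 : (0 : ℝ) < ((l 1)! : ℕ) := by exact_mod_cast Nat.factorial_pos _
    have p2 : (0 : ℝ) < ((l 2)! : ℕ) := by exact_mod_cast Nat.factorial_pos _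
    have q0 : (0 : ℝ) < ((l' 0)! : ℕ) := by exact_mod_cast Nat.factorial_pos _
    have q1 : (0 : ℝ) < ((l' 1)! : ℕ) := by exact_mod_cast Nat.factorial_pos _
    have q2 : (0 : ℝ) < ((l' 2)! : ℕ) := by exact_mod_cast Nat.factorial_pos _
    rw [← c1', ← c2']
    field_simp
  · rw [not_forall] at hc
    obtain ⟨i, hi⟩ := hc
    rw [not_le] at hi
    have hF2 : (univ.filter (fun f : K2 → Fin 3 => ∀ i, ((fib f i).card : ℤ) = l i - δ i)) = ∅ := by
      apply Finset.filter_eq_empty_iff.mpr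
      intro f _ h
      have h1 := h i
      have h0 : (0 : ℤ) ≤ (fib f i).card := Int.natCast_nonneg _
      linarith
    have hz : ∏ j, pw δ j (l j) = 0 :=
      Finset.prod_eq_zero (Finset.mem_univ i) (by simp [pw, not_le.mpr hi])
    rw [hF2, hz]
    simp

open Nat in
/-- sums over the states of a function of the levels -/
lemma sum_states_levels (δ : Fin 3 → ℤ)
    (hδ : ∑ i, δ i = (Fintype.card K1 : ℤ) - Fintype.card K2) (F : (Fin 3 → ℕ) → ℝ) :
    ∑ σ ∈ states (K1 := K1) (K2 := K2) δ, F (fun i => (fib σ.1 i).card)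
      = (((Fintype.card K1)! : ℕ) : ℝ) * (((Fintype.card K2)! : ℕ) : ℝ) *
        ∑ l ∈ Finset.Nat.antidiagonalTuple 3 (Fintype.card K1), (∏ i, pw δ i (l i)) * F l := by
  classical
  have hmaps : ∀ σ ∈ states (K1 := K1) (K2 := K2) δ,
      (fun i => (fib σ.1 i).card) ∈ Finset.Nat.antidiagonalTuple 3 (Fintype.card K1) := by
    intro σ _
    rw [Finset.Nat.mem_antidiagonalTuple]
    exact sum_card_fib σ.1
  rw [← Finset.sum_fiberwise_of_maps_to hmaps, Finset.mul_sum]
  refine Finset.sum_congr rfl (fun l hl => ?_)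
  rw [Finset.Nat.mem_antidiagonalTuple] at hl
  rw [Finset.sum_congr rfl (g := fun _ => F l) (fun σ hσ => by rw [(mem_filter.mp hσ).2])]
  rw [Finset.sum_const, nsmul_eq_mul]
  have hfil : (states (K1 := K1) (K2 := K2) δ).filter (fun σ => (fun i => (fib σ.1 i).card) = l)
      = (states (K1 := K1) (K2 := K2) δ).filter (fun σ => ∀ i, (fib σ.1 i).card = l i) := by
    ext σ
    simp [funext_iff]
  rw [hfil, card_fibre δ hδ l hl]
  ring

/-- The one-dimensional lemma (1D) of PROOF.md section 4, in the shape of helper5's `oneDim`. -/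
def OneDimStatement : Prop :=
  ∀ (p : Fin 3 → ℕ → ℝ), (∀ i k, 0 ≤ p i k) → (∀ i k, p i k * p i (k + 2) ≤ p i (k + 1) ^ 2) →
    (∀ i a b c, a ≤ b → b ≤ c → 0 < p i a → 0 < p i c → 0 < p i b) →
    ∀ (m : ℕ) (g : Fin 3 → ℕ → ℝ),
      (∑ l ∈ Finset.Nat.antidiagonalTuple 3 m, ∏ i, p i (l i)) *
          (∑ l ∈ Finset.Nat.antidiagonalTuple 3 m, (∏ i, p i (l i)) * (∑ i, g i (l i)) ^ 2) -
        (∑ l ∈ Finset.Nat.antidiagonalTuple 3 m, (∏ i, p i (l i)) * ∑ i, g i (l i)) ^ 2 ≤
      2 * ∑ i, ((∑ l ∈ Finset.Nat.antidiagonalTuple 3 m, ∏ j, p j (l j)) *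
          (∑ l ∈ Finset.Nat.antidiagonalTuple 3 m, (∏ j, p j (l j)) * g i (l i) ^ 2) -
        (∑ l ∈ Finset.Nat.antidiagonalTuple 3 m, (∏ j, p j (l j)) * g i (l i)) ^ 2)

open Nat in
/-- PROOF.md (3.5): the form is nonnegative on level functions. -/
lemma levels_nonneg (hOD : OneDimStatement) (δ : Fin 3 → ℤ) (u : Fin 3 → ℕ → ℝ) :
    0 ≤ Qf (states (K1 := K1) (K2 := K2) δ) (fun i σ => u i ((fib σ.1 i).card)) := by
  by_cases hne : (states (K1 := K1) (K2 := K2) δ).Nonempty
  · obtain ⟨σ₀, hσ₀⟩ := hne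
    have hδ : ∑ i, δ i = (Fintype.card K1 : ℤ) - Fintype.card K2 := by
      have h := mem_states.mp hσ₀
      rw [← Finset.sum_congr rfl (fun i _ => h i), Finset.sum_sub_distrib]
      have h1 : ((∑ i, (fib σ₀.1 i).card : ℕ) : ℤ) = Fintype.card K1 := by
        exact_mod_cast sum_card_fib σ₀.1
      have h2 : ((∑ i, (fib σ₀.2 i).card : ℕ) : ℤ) = Fintype.card K2 := by
        exact_mod_cast sum_card_fib σ₀.2
      push_cast at h1 h2
      rw [h1, h2]
    set C : ℝ := (((Fintype.card K1)! : ℕ) : ℝ) * (((Fintype.card K2)! : ℕ) : ℝ) with hC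
    set T := Finset.Nat.antidiagonalTuple 3 (Fintype.card K1) with hT
    have key : ∀ F : (Fin 3 → ℕ) → ℝ,
        ∑ σ ∈ states (K1 := K1) (K2 := K2) δ, F (fun i => (fib σ.1 i).card)
          = C * ∑ l ∈ T, (∏ i, pw δ i (l i)) * F l := sum_states_levels δ hδ
    have hN : ((states (K1 := K1) (K2 := K2) δ).card : ℝ) = C * ∑ l ∈ T, ∏ i, pw δ i (l i) := by
      have h := key (fun _ => 1)
      simpa using h
    have hvar : ∀ ph : (Fin 3 → ℕ) → ℝ,
        var (states (K1 := K1) (K2 := K2) δ) (fun σ => ph (fun i => (fib σ.1 i).card))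
          = C ^ 2 * ((∑ l ∈ T, ∏ i, pw δ i (l i)) * (∑ l ∈ T, (∏ i, pw δ i (l i)) * ph l ^ 2)
              - (∑ l ∈ T, (∏ i, pw δ i (l i)) * ph l) ^ 2) := by
      intro ph
      unfold var
      rw [hN, key (fun l => ph l ^ 2), key ph]
      ring
    unfold Qf
    have h1 : ∀ i, var (states (K1 := K1) (K2 := K2) δ) (fun σ => u i ((fib σ.1 i).card))
        = C ^ 2 * ((∑ l ∈ T, ∏ j, pw δ j (l j)) * (∑ l ∈ T, (∏ j, pw δ j (l j)) * u i (l i) ^ 2)
              - (∑ l ∈ T, (∏ j, pw δ j (l j)) * u i (l i)) ^ 2) :=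
      fun i => hvar (fun l => u i (l i))
    have h2 := hvar (fun l => ∑ i, u i (l i))
    rw [h2, Finset.sum_congr rfl (fun i _ => h1 i), ← Finset.mul_sum]
    have hod := hOD (pw δ) (pw_nonneg δ) (pw_logconcave δ) (pw_interval δ) (Fintype.card K1) u
    have hC2 : 0 ≤ C ^ 2 := sq_nonneg C
    nlinarith [mul_le_mul_of_nonneg_left hod hC2]
  · rw [Finset.not_nonempty_iff_eq_empty] at hne
    rw [hne]
    simp [Qf, var]

/-- **(L3) for the colouring model** (PROOF.md section 3), from the one-dimensional lemma: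
`Var (∑_i g_i(Y_i)) ≤ 2 ∑_i Var (g_i(Y_i))` under the uniform law on the states (counting normalisation). -/
theorem L3_of_oneDim (hOD : OneDimStatement) (δ : Fin 3 → ℤ)
    (g : Fin 3 → Finset K1 × Finset K2 → ℝ) :
    ((states (K1 := K1) (K2 := K2) δ).card : ℝ) * ∑ σ ∈ states δ, (∑ i, g i (view i σ)) ^ 2
        - (∑ σ ∈ states (K1 := K1) (K2 := K2) δ, ∑ i, g i (view i σ)) ^ 2
      ≤ 2 * ∑ i, (((states (K1 := K1) (K2 := K2) δ).card : ℝ) * ∑ σ ∈ states δ, g i (view i σ) ^ 2
        - (∑ σ ∈ states (K1 := K1) (K2 := K2) δ, g i (view i σ)) ^ 2) := by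
  have h := nonneg_of_levels δ (levels_nonneg hOD δ) g
  unfold qform Qf var pull at h
  linarith

/-- mean-zero form of (L3) (= PROOF.md (2.3) on a fibre). -/
theorem L3_meanZero_of_oneDim (hOD : OneDimStatement) (δ : Fin 3 → ℤ)
    (g : Fin 3 → Finset K1 × Finset K2 → ℝ)
    (hg : ∀ i, ∑ σ ∈ states (K1 := K1) (K2 := K2) δ, g i (view i σ) = 0) :
    ∑ σ ∈ states (K1 := K1) (K2 := K2) δ, (∑ i, g i (view i σ)) ^ 2
      ≤ 2 * ∑ σ ∈ states (K1 := K1) (K2 := K2) δ, ∑ i, g i (view i σ) ^ 2 := by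
  have h := L3_of_oneDim hOD δ g
  have h0 : ∑ σ ∈ states (K1 := K1) (K2 := K2) δ, ∑ i, g i (view i σ) = 0 := by
    rw [Finset.sum_comm]
    exact Finset.sum_eq_zero (fun i _ => hg i)
  have h1 : ∑ i, (((states (K1 := K1) (K2 := K2) δ).card : ℝ) *
        ∑ σ ∈ states (K1 := K1) (K2 := K2) δ, g i (view i σ) ^ 2
        - (∑ σ ∈ states (K1 := K1) (K2 := K2) δ, g i (view i σ)) ^ 2)
      = ((states (K1 := K1) (K2 := K2) δ).card : ℝ) *
        ∑ σ ∈ states (K1 := K1) (K2 := K2) δ, ∑ i, g i (view i σ) ^ 2 := by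
    rw [Finset.sum_comm (s := states (K1 := K1) (K2 := K2) δ), Finset.mul_sum]
    refine Finset.sum_congr rfl (fun i _ => ?_)
    rw [hg i]
    ring
  rw [h0, h1] at h
  by_cases hne : (states (K1 := K1) (K2 := K2) δ).Nonempty
  · have hpos : (0 : ℝ) < (states (K1 := K1) (K2 := K2) δ).card := by
      exact_mod_cast Finset.card_pos.mpr hne
    have h' : ((states (K1 := K1) (K2 := K2) δ).card : ℝ) *
        ∑ σ ∈ states (K1 := K1) (K2 := K2) δ, (∑ i, g i (view i σ)) ^ 2
        ≤ ((states (K1 := K1) (K2 := K2) δ).card : ℝ) *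
          (2 * ∑ σ ∈ states (K1 := K1) (K2 := K2) δ, ∑ i, g i (view i σ) ^ 2) := by
      linarith
    exact le_of_mul_le_mul_left h' hpos
  · rw [Finset.not_nonempty_iff_eq_empty] at hne
    rw [hne]
    simp

end Crest.Agent.Helper24.SW
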