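import Mathlib

/-!
# S0453 (row 299), WP-D1, part 1: generic quadratic-form tools

* `var Ω φ`  : `|Ω|² ·` variance of `φ` under the uniform law on the finset `Ω` (counting normalisation);
* `Qf Ω G`   : the three-party form `2 ∑_i var (G i) - var (∑_i G i)`;
* parallelogram law, homogeneity, invariance under a bijection of `Ω`;
* `Qf_nonneg_of_antisymm` : the form is `≥ 0` on functions that change sign under a bijection of `Ω`
  and have, at every state, a vanishing component (PROOF.md (3.2));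
* `exists_minimiser` : a continuous 2-homogeneous function that is negative somewhere has a minimiser of its
  Rayleigh quotient against a positive definite 2-homogeneous function (PROOF.md (3.3), first half).
-/

set_option autoImplicit false
open Finset

namespace Crest.Agent.Helper24.SW

section generic
variable {S : Type*}

/-- `|Ω|² ·` variance of `φ` under the uniform law on `Ω`. -/
def var (Ω : Finset S) (φ : S → ℝ) : ℝ :=
  (Ω.card : ℝ) * ∑ σ ∈ Ω, φ σ ^ 2 - (∑ σ ∈ Ω, φ σ) ^ 2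

/-- The three-party form `2 ∑_i Var (G i) - Var (∑_i G i)`. -/
def Qf (Ω : Finset S) (G : Fin 3 → S → ℝ) : ℝ :=
  2 * ∑ i, var Ω (G i) - var Ω (fun σ => ∑ i, G i σ)

lemma var_add_sub (Ω : Finset S) (φ ψ : S → ℝ) :
    var Ω (φ + ψ) + var Ω (φ - ψ) = 2 * var Ω φ + 2 * var Ω ψ := by
  unfold var
  simp only [Pi.add_apply, Pi.sub_apply]
  have h1 : ∑ σ ∈ Ω, (φ σ + ψ σ) ^ 2 + ∑ σ ∈ Ω, (φ σ - ψ σ) ^ 2
      = 2 * ∑ σ ∈ Ω, φ σ ^ 2 + 2 * ∑ σ ∈ Ω, ψ σ ^ 2 := by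
    rw [← Finset.sum_add_distrib, Finset.mul_sum, Finset.mul_sum, ← Finset.sum_add_distrib]
    exact Finset.sum_congr rfl (fun σ _ => by ring)
  rw [Finset.sum_add_distrib, Finset.sum_sub_distrib]
  linear_combination (Ω.card : ℝ) * h1

lemma var_smul (Ω : Finset S) (t : ℝ) (φ : S → ℝ) : var Ω (t • φ) = t ^ 2 * var Ω φ := by
  unfold var
  simp only [Pi.smul_apply, smul_eq_mul, mul_pow, ← Finset.mul_sum]
  ring

lemma var_comp_equiv (Ω : Finset S) (e : S ≃ S) (he : ∀ σ, σ ∈ Ω ↔ e σ ∈ Ω) (φ : S → ℝ) :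
    var Ω (fun σ => φ (e σ)) = var Ω φ := by
  unfold var
  rw [Finset.sum_equiv e he (fun σ _ => rfl) (g := fun σ => φ σ ^ 2),
    Finset.sum_equiv e he (fun σ _ => rfl) (g := fun σ => φ σ)]

lemma var_of_sum_eq_zero (Ω : Finset S) (φ : S → ℝ) (h : ∑ σ ∈ Ω, φ σ = 0) :
    var Ω φ = (Ω.card : ℝ) * ∑ σ ∈ Ω, φ σ ^ 2 := by
  unfold var
  rw [h]; ring

lemma var_congr (Ω : Finset S) (φ ψ : S → ℝ) (h : ∀ σ ∈ Ω, φ σ = ψ σ) : var Ω φ = var Ω ψ := by
  unfold var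
  rw [Finset.sum_congr rfl (fun σ hσ => by rw [h σ hσ]),
    Finset.sum_congr rfl (fun σ hσ => by rw [h σ hσ]) (s₁ := Ω) (f := φ)]

lemma Qf_congr (Ω : Finset S) (G H : Fin 3 → S → ℝ) (h : ∀ i, ∀ σ ∈ Ω, G i σ = H i σ) :
    Qf Ω G = Qf Ω H := by
  unfold Qf
  rw [Finset.sum_congr rfl (fun i _ => var_congr Ω (G i) (H i) (h i)),
    var_congr Ω (fun σ => ∑ i, G i σ) (fun σ => ∑ i, H i σ)
      (fun σ hσ => Finset.sum_congr rfl (fun i _ => h i σ hσ))]

lemma Qf_add_sub (Ω : Finset S) (G H : Fin 3 → S → ℝ) :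
    Qf Ω (G + H) + Qf Ω (G - H) = 2 * Qf Ω G + 2 * Qf Ω H := by
  unfold Qf
  have e1 : (fun σ => ∑ i, (G + H) i σ) = (fun σ => ∑ i, G i σ) + (fun σ => ∑ i, H i σ) := by
    funext σ; simp [Finset.sum_add_distrib]
  have e2 : (fun σ => ∑ i, (G - H) i σ) = (fun σ => ∑ i, G i σ) - (fun σ => ∑ i, H i σ) := by
    funext σ; simp [Finset.sum_sub_distrib]
  have h3 := var_add_sub Ω (fun σ => ∑ i, G i σ) (fun σ => ∑ i, H i σ)
  have h4 : ∑ i, var Ω ((G + H) i) + ∑ i, var Ω ((G - H) i)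
      = 2 * ∑ i, var Ω (G i) + 2 * ∑ i, var Ω (H i) := by
    rw [← Finset.sum_add_distrib, Finset.mul_sum, Finset.mul_sum, ← Finset.sum_add_distrib]
    exact Finset.sum_congr rfl (fun i _ => var_add_sub Ω (G i) (H i))
  rw [e1, e2]
  linear_combination 2 * h4 - h3

lemma Qf_smul (Ω : Finset S) (t : ℝ) (G : Fin 3 → S → ℝ) : Qf Ω (t • G) = t ^ 2 * Qf Ω G := by
  unfold Qf
  have e1 : (fun σ => ∑ i, (t • G) i σ) = t • (fun σ => ∑ i, G i σ) := by
    funext σ; simp [Finset.mul_sum]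
  have h4 : ∑ i, var Ω ((t • G) i) = t ^ 2 * ∑ i, var Ω (G i) := by
    rw [Finset.mul_sum]
    exact Finset.sum_congr rfl (fun i _ => var_smul Ω t (G i))
  rw [e1, var_smul, h4]
  ring

lemma Qf_comp_equiv (Ω : Finset S) (e : S ≃ S) (he : ∀ σ, σ ∈ Ω ↔ e σ ∈ Ω)
    (G : Fin 3 → S → ℝ) : Qf Ω (fun i σ => G i (e σ)) = Qf Ω G := by
  unfold Qf
  rw [var_comp_equiv Ω e he (fun σ => ∑ i, G i σ),
    Finset.sum_congr rfl (fun i _ => var_comp_equiv Ω e he (G i))]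

/-- PROOF.md (3.2): if `G` changes sign under a bijection `e` of `Ω` and at every state of `Ω` one of the
three components of `G` vanishes, then `Qf Ω G ≥ 0`. -/
lemma Qf_nonneg_of_antisymm (Ω : Finset S) (e : S ≃ S) (he : ∀ σ, σ ∈ Ω ↔ e σ ∈ Ω)
    (G : Fin 3 → S → ℝ) (hanti : ∀ i, ∀ σ ∈ Ω, G i (e σ) = - G i σ)
    (hzero : ∀ σ ∈ Ω, ∃ k, G k σ = 0) : 0 ≤ Qf Ω G := by
  have hmean : ∀ i, ∑ σ ∈ Ω, G i σ = 0 := by
    intro i
    have h1 : ∑ σ ∈ Ω, G i (e σ) = ∑ σ ∈ Ω, G i σ :=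
      Finset.sum_equiv e he (fun σ _ => rfl)
    have h2 : ∑ σ ∈ Ω, G i (e σ) = - ∑ σ ∈ Ω, G i σ := by
      rw [← Finset.sum_neg_distrib]
      exact Finset.sum_congr rfl (fun σ hσ => hanti i σ hσ)
    linarith
  have hmean' : ∑ σ ∈ Ω, ∑ i, G i σ = 0 := by
    rw [Finset.sum_comm]
    exact Finset.sum_eq_zero (fun i _ => hmean i)
  unfold Qf
  rw [var_of_sum_eq_zero Ω _ hmean',
    Finset.sum_congr rfl (fun i _ => var_of_sum_eq_zero Ω (G i) (hmean i)),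
    ← Finset.mul_sum, Finset.sum_comm]
  have hpt : ∀ σ ∈ Ω, (∑ i, G i σ) ^ 2 ≤ 2 * ∑ i, G i σ ^ 2 := by
    intro σ hσ
    obtain ⟨k, hk⟩ := hzero σ hσ
    simp only [Fin.sum_univ_three]
    fin_cases k <;> simp only [Fin.zero_eta, Fin.mk_one, Fin.reduceFinMk] at hk <;> rw [hk] <;>
      nlinarith [sq_nonneg (G 0 σ - G 1 σ), sq_nonneg (G 0 σ - G 2 σ), sq_nonneg (G 1 σ - G 2 σ)]
  have hsum : ∑ σ ∈ Ω, (∑ i, G i σ) ^ 2 ≤ 2 * ∑ σ ∈ Ω, ∑ i, G i σ ^ 2 := by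
    rw [Finset.mul_sum]
    exact Finset.sum_le_sum hpt
  have hN : (0 : ℝ) ≤ Ω.card := Nat.cast_nonneg _
  nlinarith [mul_le_mul_of_nonneg_left hsum hN]

end generic

/-- A continuous 2-homogeneous function `q` that takes a negative value has a minimiser of the Rayleigh
quotient `q / E` against a positive definite continuous 2-homogeneous `E`. -/
theorem exists_minimiser {V : Type*} [NormedAddCommGroup V] [NormedSpace ℝ V] [ProperSpace V]
    (q E : V → ℝ) (hq : Continuous q) (hE : Continuous E)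
    (hq2 : ∀ (t : ℝ) (g : V), q (t • g) = t ^ 2 * q g)
    (hE2 : ∀ (t : ℝ) (g : V), E (t • g) = t ^ 2 * E g)
    (hEpos : ∀ g : V, g ≠ 0 → 0 < E g) (g₀ : V) (h₀ : q g₀ < 0) :
    ∃ (v : V) (ρ : ℝ), ρ < 0 ∧ 0 < E v ∧ q v = ρ * E v ∧ ∀ g : V, ρ * E g ≤ q g := by
  have hq0 : q 0 = 0 := by
    have := hq2 0 0
    simpa using this
  have hE0 : E 0 = 0 := by
    have := hE2 0 0
    simpa using this
  have hg₀ : g₀ ≠ 0 := by
    rintro rfl
    linarith
  have hcomp : IsCompact (Metric.sphere (0 : V) 1) := isCompact_sphere 0 1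
  have hne : (Metric.sphere (0 : V) 1).Nonempty :=
    ⟨‖g₀‖⁻¹ • g₀, by simp [norm_smul, hg₀]⟩
  have hcont : ContinuousOn (fun g => q g / E g) (Metric.sphere (0 : V) 1) := by
    apply ContinuousOn.div hq.continuousOn hE.continuousOn
    intro g hg
    have : g ≠ 0 := by
      rintro rfl
      simp at hg
    exact (hEpos g this).ne'
  obtain ⟨v, hv, hmin⟩ := hcomp.exists_isMinOn hne hcont
  have hv0 : v ≠ 0 := by
    rintro rfl
    simp at hv
  have hEv := hEpos v hv0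
  have key : ∀ g : V, g ≠ 0 → q v / E v ≤ q g / E g := by
    intro g hg
    have hmem : ‖g‖⁻¹ • g ∈ Metric.sphere (0 : V) 1 := by simp [norm_smul, hg]
    have h1 : q v / E v ≤ q (‖g‖⁻¹ • g) / E (‖g‖⁻¹ • g) := isMinOn_iff.mp hmin _ hmem
    rw [hq2, hE2] at h1
    have hn : (‖g‖⁻¹) ^ 2 ≠ 0 := by positivity
    rwa [mul_div_mul_left _ _ hn] at h1
  refine ⟨v, q v / E v, ?_, hEv, by field_simp, ?_⟩
  · have h1 := key g₀ hg₀
    have h2 : q g₀ / E g₀ < 0 := div_neg_of_neg_of_pos h₀ (hEpos g₀ hg₀)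
    linarith
  · intro g
    by_cases hg : g = 0
    · subst hg
      simp [hq0, hE0]
    · have h1 := key g hg
      have hEg := hEpos g hg
      rw [div_le_div_iff₀ hEv hEg] at h1
      rw [div_mul_eq_mul_div, div_le_iff₀ hEv]
      linarith

end Crest.Agent.Helper24.SW
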